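import Crest.Agent.X262.Mod79.Neg
import Crest.Agent.X262.Loc95.Prj
import Crest.Agent.X277.Pst.Fin
import Crest.Agent.X277.Slope.Reg

/-!
# Row 262, GFM (helper18), part 0: the generic fibre of a model over the base field of a free class

`cf A` is the field of the (Stein factorisation of the) image of the free class `A`.

* `isMod_up`, `car_up`, `up_surjective` : models, Cartier classes on the generic fibre;
* `cf_le_of_car`, `cf_eq_of_car`, `lin_up_of_car` : classes which are Cartier on the base;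
* `prm_up_iff`   : primes of the generic fibre are the horizontal primes;
* `dim_cf_pos`, `reg_cf` : the base field;
* `rig`          : sections of an exceptional class on the generic fibre;
* `rho_up`       : Picard number one on the generic fibre.
-/

set_option autoImplicit false
set_option linter.unusedSectionVars false

noncomputable section

namespace Crest.Agent.X262.Gfm

open Crest.Agent.X277 Crest.Agent.X277.BD Crest.Agent.X277.Pst
open Crest.Agent.X262.Mod Crest.Agent.X262.Loc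

universe u

variable {k F : Type u} [Field k] [Field F] [Algebra k F] {H A A' a b e : BD k F} {f g : F}

section Tower

variable (M : Type u) [Field M] [Algebra k M] [Algebra M F] [IsScalarTower k M F]

theorem isMod_up (hH : IsMod H) : IsMod (up M H) := ⟨hH.free.up M, hH.bir.up M⟩

theorem car_up (h : Car H a) : Car (up M H) (up M a) := by
  obtain ⟨c, h1, h2⟩ := h
  refine ⟨c, ?_, ?_⟩
  · simpa only [map_add, map_nsmul] using h1.up M
  · simpa only [map_sub, map_nsmul] using h2.up M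

theorem exists_up_free {a : BD M F} (ha : a.Free) : ∃ a' : BD k F, a'.Free ∧ up M a' = a := by
  obtain ⟨r, s, -, h1, h2⟩ := ha.exists_fam
  exact ⟨mxf k s, free_mxf s, (up_mxf s).trans (eq_mxf h1 h2).symm⟩

theorem up_surjective : Function.Surjective (up M : BD k F → BD M F) := fun a => by
  obtain ⟨b, c, hb, hc, rfl⟩ := exists_sub a
  obtain ⟨b', -, rfl⟩ := exists_up_free (k := k) M hb
  obtain ⟨c', -, rfl⟩ := exists_up_free (k := k) M hc
  exact ⟨b' - c', map_sub _ _ _⟩

/-- functions without poles are algebraic over the ground field -/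
theorem isAlg_of_Sec_zero (h : f ∈ (0 : BD k F).Sec) : IsAlgebraic k f := by
  have h1 : IsIntegral (⊥ : Subalgebra k F) f := Cns.isIntegral_of_val fun V hV =>
    RZ.le_one_iff.1 (h ⟨V, Cns.KV.of_le hV⟩)
  exact (isIntegral_trans (R := k) f h1).isAlgebraic

end Tower

/-! ### classes from the base -/

theorem cf_le_of_free {n : ℕ} (hA : A.Free) (h : (n • A - a).Free) : cf a ≤ cf A := by
  have h1 := cf_le_add a h.eff
  rw [add_sub_cancel] at h1
  refine h1.trans ?_
  have h2 := cf_le_add (n • A) hA.eff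
  rwa [← succ_nsmul, cf_nsmul hA n.succ_pos] at h2

theorem cf_le_of_car (hA : A.Free) (h : Car A a) : cf a ≤ cf A := by
  obtain ⟨c, -, h1⟩ := h
  exact cf_le_of_free hA h1


theorem lin_up_of_free (ha : a.Free) {M : IntermediateField k F} (hM : cf a ≤ M) :
    Lin (up M a) 0 := by
  obtain ⟨h0, -, h1⟩ := exists_pb_of_le ha ((sf_le_cf a).trans hM)
  have h2 := h1.up M
  rwa [up_pb _ fun _ => rfl] at h2

/-- a class which is Cartier on the base is trivial on the generic fibre -/
theorem lin_up_of_car (hA : A.Free) (h : Car A a) {M : IntermediateField k F} (hM : cf A ≤ M) :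
    Lin (up M a) 0 := by
  obtain ⟨c, h1, h2⟩ := h
  have h3 : cf (c • A + a) ≤ cf A := cf_le_of_free (n := c + c) hA (by
    convert h2 using 1
    rw [add_nsmul]
    abel)
  have h4 : cf (c • A) ≤ cf A := cf_le_of_free (n := c) hA (by simpa using Free.zero)
  have h5 := (lin_up_of_free h1 (h3.trans hM)).add
    (lin_up_of_free (hA.nsmul c) (h4.trans hM)).neg
  rwa [← sub_eq_add_neg, ← map_sub, add_sub_cancel_left, neg_zero, add_zero] at h5

theorem ac_cf (A : BD k F) : Slope.AC (cf A) F := (Slope.ac_iff _).2 fun _ => cf_cl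

theorem reg_cf [CharZero k] (A : BD k F) : Gj.Reg (cf A) F :=
  haveI : CharZero (cf A) := algebraRat.charZero _
  Slope.reg_of_ac (ac_cf A)

theorem mem_cf_of_Sec_zero (h : f ∈ (0 : BD (cf A) F).Sec) : f ∈ cf A :=
  cf_cl (isAlg_of_Sec_zero h)

variable [CharZero k] [Algebra.EssFiniteType k F]

/-- the base field lies in the local rings of the base at horizontal valuations -/
theorem mem_loc_cf (hA : A.Free) {V : RZ k F} (hV : ∀ x ∈ cf A, x ∈ V.1) (hf : f ∈ cf A) :
    f ∈ loc A V := by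
  obtain ⟨u, hu, h1⟩ := lin_bs hA
  obtain ⟨m, w, h2, h3, h4⟩ := bir_of_big (va_bs hA).big ⟨f, hf⟩
  let W : RZ (cf A) F := ⟨V.1, fun c => hV c c.2⟩
  have h5 : m • A = pb (cf A).val (m • bs A) + pr k (u ^ m) := by
    rw [map_nsmul, pr_pow hu, ← smul_add, ← h1]
  have h6 : ∀ y ∈ (m • bs A).Sec, (y : F) * u ^ m ∈ (m • A).Sec := fun y hy =>
    h5 ▸ mul_mem_Sec (pb_mem_Sec (α := (cf A).val) hy) (mem_Sec_pr _)
  refine ⟨m, w * u ^ m, h6 w h2, ?_, ?_⟩
  · have h7 : (pb (cf A).val (m • bs A)).val V = 1 := by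
      have h8 := val_up (K := cf A) (pb (cf A).val (m • bs A)) W
      rw [up_pb _ fun _ => rfl] at h8
      exact h8.symm
    have h9 : V.v (w : F) = 1 := W.v_alg h3
    rw [h5, val_add, h7, val_pr (pow_ne_zero m hu), map_mul, h9]
  · rw [← mul_assoc]
    exact h6 _ h4

instance essFT_cf (A : BD k F) : Algebra.EssFiniteType (cf A) F := .of_comp k _ _

/-- **the primes of the generic fibre are the horizontal primes** -/
theorem prm_up_iff (hH : H.Free) (hA : A.Free) (h : Car H A) (W : RZ (cf A) F) :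
    Prm (up (cf A) H) W ↔ Prm H (W.dn k) :=
  ⟨fun h1 => prm_dn hH h1 (by
    rintro _ ⟨x, rfl⟩
    exact sub_cl _ _ (h.loc_le _ (mem_loc_cf hA (fun y hy => W.2 ⟨y, hy⟩) x.2))), prm_up⟩

theorem leOn_up (hH : H.Free) (hA : A.Free) (h : Car H A) (h1 : LeOn H a b) :
    LeOn (up (cf A) H) (up (cf A) a) (up (cf A) b) := fun W hW => by
  rw [val_up, val_up]
  exact h1 _ ((prm_up_iff hH hA h W).1 hW)

theorem eqOn_up (hH : H.Free) (hA : A.Free) (h : Car H A) (h1 : EqOn H a b) :
    EqOn (up (cf A) H) (up (cf A) a) (up (cf A) b) :=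
  (leOn_up hH hA h h1.le).antisymm (leOn_up hH hA h h1.ge)

theorem big_iff_dim_cf (hA : A.Free) : Big A ↔ dim (cf A) F = 0 := by
  rw [hA.nef.big_iff_nu, nu_eq_cf hA, ← dim_cf_add A]
  omega

theorem dim_cf_pos (hA : A.Free) (h : ¬ Big A) : 0 < dim (cf A) F :=
  Nat.pos_of_ne_zero fun h0 => h ((big_iff_dim_cf hA).2 h0)



/-- Picard number one on the generic fibre -/
theorem rho_up (hH : H.Free) (hA : A.Free) (h : Car H A) {κ : BD k F}
    (qf : ∀ a : BD k F, ∃ m : ℕ, 0 < m ∧ ∃ a', Car H a' ∧ EqOn H a' (m • a))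
    (rho : ∀ a, Car H a → ∃ m : ℕ, 0 < m ∧ ∃ c : ℤ, Car A (m • a - c • κ)) (a : BD (cf A) F) :
    ∃ m : ℕ, 0 < m ∧ ∃ (c : ℤ) (f : F), f ≠ 0 ∧
      EqOn (up (cf A) H) (m • a) (c • up (cf A) κ + pr (cf A) f) := by
  obtain ⟨a, rfl⟩ := up_surjective (k := k) (cf A) a
  obtain ⟨m, hm, a', h1, h2⟩ := qf a
  obtain ⟨m', hm', c, h3⟩ := rho a' h1
  obtain ⟨f, hf, h4⟩ := lin_up_of_car hA h3 le_rfl
  refine ⟨m' * m, mul_pos hm' hm, c, f, hf, ?_⟩
  rw [map_sub, map_nsmul, map_zsmul, zero_add, sub_eq_iff_eq_add'] at h4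
  have h5 := (eqOn_up hH hA h h2.symm).nsmul m'
  rwa [h4, map_nsmul, smul_smul] at h5

/-- `ℚ`-factoriality passes to the generic fibre -/
theorem qf_up (hH : H.Free) (hA : A.Free) (h : Car H A)
    (qf : ∀ a : BD k F, ∃ m : ℕ, 0 < m ∧ ∃ a', Car H a' ∧ EqOn H a' (m • a)) (a : BD (cf A) F) :
    ∃ m : ℕ, 0 < m ∧ ∃ a', Car (up (cf A) H) a' ∧ EqOn (up (cf A) H) a' (m • a) := by
  obtain ⟨a, rfl⟩ := up_surjective (k := k) (cf A) a
  obtain ⟨m, hm, a', h1, h2⟩ := qf a
  exact ⟨m, hm, _, car_up _ h1, map_nsmul (up (k := k) (cf A)) m a ▸ eqOn_up hH hA h h2⟩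

end Crest.Agent.X262.Gfm
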