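import Crest.Agent.X262.Gfm18.Base
import Crest.Agent.X262.Sark.Defs
import Crest.Agent.X262.FG.Prm0
import Crest.Agent.X277.Unf.Main

/-!
# Row 262, GFM (helper18), part 1: Mori fibre spaces and the volume bound

* `le_kP`, `eqOn_kP`         : `κ ≤ r K_P` on a smooth model;
* `isMod_anti`, `prm_anti`   : `l A - q κ` is a polarisation of a model with the primes of `Y`;
* `VolM n C`                 : the volume bound for Mori fibre spaces of relative dimension `≥ 2`;
* `Vol12 n C`, `volM_of_12`  : the form of helper12 implies it.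
-/

set_option autoImplicit false
set_option linter.unusedSectionVars false

open scoped KaehlerDifferential

noncomputable section

namespace Crest.Agent.X262.Gfm

open Crest.Agent.X277 Crest.Agent.X277.Lef Crest.Agent.X277.BD Crest.Agent.X277.Pst
open Crest.Agent.X277.BD.Br (On oP kP)
open Crest.Agent.X262.Mod Crest.Agent.X262.Loc Crest.Agent.X262.Sark
open Crest.Agent.X262.FG.Prm5 (isMod_oP car_of_on)
open List (replicate)

variable {K : Type} [Field K] [Algebra ℂ K] {n : ℕ} {b : Module.Basis (Fin n) K Ω[K⁄ℂ]}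

theorem leOn_kP (Y : TM b) (W : PModel ℂ K) : LeOn (oP W) Y.κ (Y.r • kP W b) := fun V hV => by
  by_cases h : Prm Y.H V
  · exact (Y.κ_eq W V hV h).le
  · exact (Y.κ_lt W V hV h).le



/-- `l A - q κ` is a polarisation -/
theorem isMod_anti (Y : MFS b) {q l : ℕ} (h : (l • Y.A - q • Y.κ - Y.H).Free) :
    IsMod (l • Y.A - q • Y.κ) := by
  have h1 := Y.mod.add h
  rwa [add_sub_cancel] at h1

theorem car_anti (Y : MFS b) (q l : ℕ) : Car Y.H (l • Y.A - q • Y.κ) :=
  (Y.A_car.nsmul l).sub (Y.car.nsmul q)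

theorem car_anti' (Y : MFS b) {q l : ℕ} (h : (l • Y.A - q • Y.κ - Y.H).Free) :
    Car (l • Y.A - q • Y.κ) Y.H :=
  car_of_free (isMod_anti Y h).free Y.mod.free (n := 1) (by rwa [one_nsmul])

theorem prm_anti (Y : MFS b) {q l : ℕ} (h : (l • Y.A - q • Y.κ - Y.H).Free) (V : RZ ℂ K) :
    Prm (l • Y.A - q • Y.κ) V ↔ Prm Y.H V :=
  ⟨(car_anti Y q l).prm, (car_anti' Y h).prm⟩

/-- on the fibres of a fibration over the base, `c A - t κ` is `t` times `-κ` -/
theorem lin_up_anti {A κ : BD ℂ K} (hA : A.Free) {M : IntermediateField ℂ K} (hM : cf A ≤ M)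
    (c t : ℕ) : Lin (up M (c • A - t • κ)) (t • up M (-κ)) := by
  have h := ((lin_up_of_free hA hM).nsmul c).add (Lin.rfl (a := t • up M (-κ)))
  rw [smul_zero, zero_add] at h
  rwa [sub_eq_add_neg, ← smul_neg, map_add, map_nsmul, map_nsmul]

variable [Algebra.EssFiniteType ℂ K]


theorem bnum_rep_lin' {k F : Type} [Field k] [Field F] [Algebra k F] [CharZero k]
    [Algebra.EssFiniteType k F] {a a' : BD k F} (e : Lin a a') (i : ℕ) :
    bnum (replicate i a) = bnum (replicate i a') := by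
  simpa using bnum_rep_lin e i []

theorem bnum_up_anti {A κ : BD ℂ K} (hA : A.Free) {M : IntermediateField ℂ K} (hM : cf A ≤ M)
    (c t i : ℕ) : bnum (replicate i (up M (c • A - t • κ))) =
      (t : ℤ) ^ i * bnum (replicate i (up M (-κ))) := by
  rw [bnum_rep_lin' (lin_up_anti hA hM c t), bnum_pow_nsmul]


theorem dim_pos (Y : MFS b) : 0 < dim (cf Y.A) K := dim_cf_pos Y.A_free Y.nb

/-- the volume bound for Mori fibre spaces of relative dimension at least two -/
def VolM (n C : ℕ) : Prop := ∀ (K : Type) [Field K] [Algebra ℂ K] [Algebra.EssFiniteType ℂ K]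
  (b : Module.Basis (Fin n) K Ω[K⁄ℂ]) (Y : MFS b), 2 ≤ dim (cf Y.A) K →
    ∃ M : IntermediateField ℂ K, cf Y.A ≤ M ∧ (∀ x, IsAlgebraic M x → x ∈ M) ∧ 2 ≤ dim M K ∧
      bnum (replicate (dim M K) (up M (-Y.κ))) ≤ ((C * Y.r : ℕ) : ℤ) ^ dim M K




end Crest.Agent.X262.Gfm
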