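import Crest.Agent.X262.Gfm18.Can
import Crest.Agent.X262.Loc95.CanS
import Crest.Agent.X262.Reg18.Num
import Crest.Agent.X262.Reg18.Defs
import Crest.Agent.X262.Live3.Main
import Crest.Agent.X262.Rho82.Nef
import Crest.Agent.X262.DivB81.Ctr
import Crest.Agent.X262.R1.Main_Mg
import Crest.Agent.X262.Sark27.Term
import Crest.Agent.X277.Unf.Main
import Crest.Agent.X262.End95.Pg
import Crest.Agent.X262.R139.Main

-- ▼ part X262/Gfm18/Vol
section

/-!
# Row 262, GFM (helper18), part 3: the volume statement for Mori fibre spaces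

* `VolCF n C`, `volM_of_cf` : the bound over an arbitrary ground field implies `VolM`;
* `VolS n`, `volS_of_volM`  : the statement with relative dimension one included.
-/

set_option autoImplicit false
set_option linter.unusedSectionVars false

open scoped KaehlerDifferential

noncomputable section

namespace Crest.Agent.X262.Gfm

open Module Crest.Agent.X277 Crest.Agent.X277.Lef Crest.Agent.X277.BD Crest.Agent.X277.Pst
open Crest.Agent.X277.Jet
open Crest.Agent.X262.Mod Crest.Agent.X262.Loc Crest.Agent.X262.Sark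
open List (replicate)

/-- the volume bound over an arbitrary ground field -/
def VolCF (n C : ℕ) : Prop := ∀ (E F : Type) [Field E] [Field F] [Algebra E F] [CharZero E]
  [Algebra.EssFiniteType E F] (m : ℕ) (b : Basis (Fin m) F Ω[F⁄E]) (H : BD E F) (r : ℕ) (u : F),
    CF b H r u → 2 ≤ dim E F → dim E F ≤ n →
    ∃ M : IntermediateField E F, Gj.Reg M F ∧ 2 ≤ dim M F ∧
      bnum (replicate (dim M F) (up M H)) ≤ ((C * r : ℕ) : ℤ) ^ dim M F

variable {n C : ℕ}

theorem dim_eq_of_basis {E F : Type} [Field E] [Field F] [Algebra E F] [CharZero E]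
    [Algebra.EssFiniteType E F] (b : Basis (Fin n) F Ω[F⁄E]) : dim E F = n := by
  have h3 := trdeg_eq (E := E) (K := F)
  rw [finrank_eq_card_basis b, Fintype.card_fin, trdeg_eq_dim] at h3
  exact_mod_cast h3

theorem volM_of_cf (h : VolCF n C) : VolM n C := fun K _ _ _ b Y hd => by
  obtain ⟨q, l, hq, h1⟩ := Y.anti
  obtain ⟨Z⟩ := exists_fr (E := cf Y.A) (K := K)
  obtain ⟨u, h2⟩ := exists_cf Y hq h1 Z.basis
  obtain ⟨M, h3, h4, h5⟩ := h _ K _ _ _ _ u h2 hd (by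
    have h3 := dim_eq_of_basis b
    have h4 := dim_cf_add Y.A
    omega)
  have h6 : cf Y.A ≤ M.restrictScalars ℂ := fun x hx => M.algebraMap_mem ⟨x, hx⟩
  have h7 : bnum (replicate (dim (M.restrictScalars ℂ) K)
      (up (M.restrictScalars ℂ) (l • Y.A - q • Y.κ))) ≤
      ((C * (q * Y.r) : ℕ) : ℤ) ^ dim (M.restrictScalars ℂ) K := by
    have e : up (M.restrictScalars ℂ) (l • Y.A - q • Y.κ) =
        up M (up (cf Y.A) (l • Y.A - q • Y.κ)) := (mp_mp (fun _ => rfl) _).symm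
    rw [e]
    exact h5
  refine ⟨M.restrictScalars ℂ, h6, (Slope.ac_iff M).1 (Slope.ac_of_reg h3), h4, ?_⟩
  rw [bnum_up_anti Y.A_free h6, show ((C * (q * Y.r) : ℕ) : ℤ) = q * (C * Y.r : ℕ) by
    push_cast; ring, mul_pow] at h7
  exact le_of_mul_le_mul_left h7 (pow_pos (by exact_mod_cast hq) _)

/-- the volume statement of the layer BND, in dimension `n` -/
def VolS (n : ℕ) : Prop := ∃ C : ℕ, ∀ (K : Type) [Field K] [Algebra ℂ K]
  [Algebra.EssFiniteType ℂ K] (b : Basis (Fin n) K Ω[K⁄ℂ]) (Y : MFS b),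
    ∃ M : IntermediateField ℂ K, cf Y.A ≤ M ∧ (∀ x, IsAlgebraic M x → x ∈ M) ∧
      min 2 (dim (cf Y.A) K) ≤ dim M K ∧
      bnum (replicate (dim M K) (up M (-Y.κ))) ≤ ((C * Y.r : ℕ) : ℤ) ^ dim M K

theorem volS_of_volM (h : VolM (n + 1) C) : VolS (n + 1) := by
  refine ⟨max C 2, fun K _ _ _ b Y => ?_⟩
  by_cases hd : 2 ≤ dim (cf Y.A) K
  · obtain ⟨M, h1, h2, h3, h4⟩ := h K b Y hd
    refine ⟨M, h1, h2, (min_le_left _ _).trans h3, h4.trans (pow_le_pow_left₀ (by positivity) ?_ _)⟩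
    exact_mod_cast Nat.mul_le_mul_right _ (le_max_left _ _)
  · have h1 : dim (cf Y.A) K = 1 := by
      have := dim_pos Y
      omega
    refine ⟨cf Y.A, le_rfl, fun _ => cf_cl, min_le_right _ _, ?_⟩
    rw [h1, List.replicate_one, map_neg, bnum_neg, MFS.deg_κ Y h1, pow_one, neg_mul, neg_neg]
    exact_mod_cast Nat.mul_le_mul_right _ (le_max_right C 2)


theorem volS_of_cf (h : VolCF (n + 1) C) : VolS (n + 1) := volS_of_volM (volM_of_cf h)

end Crest.Agent.X262.Gfm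
end
end

-- ▼ part X262/Reg18/Main
section

/-!
# Row 262, REG (helper18): DIV-A

* `rC`, `ctrHom`  : the field of the centre depends only on the local ring;
* `dg_of_le`      : classes from a model which contracts the ruling have degree zero;
* `slice`         : `-K_Z · f ≥ 1` and `E` is ruled;
* `divA_of`       : DIV-A.
-/

set_option autoImplicit false
set_option linter.style.haveILetI false

noncomputable section

namespace Crest.Agent.X262.Reg

open Crest.Agent.X277 Crest.Agent.X277.Lef Crest.Agent.X277.BD Crest.Agent.X277.Pst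
open Crest.Agent.X277.BD.Br (On oP kP)
open Crest.Agent.X277.BD.Cyc (Rf plV lnr_plV)
open Crest.Agent.X262.Mod Crest.Agent.X262.Sark Crest.Agent.X262.Bnd Crest.Agent.X262.End95
open Crest.Agent.X262.Geo Crest.Agent.X262.Loc Crest.Agent.X262.Slc57
open List (replicate)
open Finset

variable {K : Type} [Field K] [Algebra ℂ K] {H H' a : BD ℂ K} {V W : RZ ℂ K} {d : ℕ}

/-- the residue map of the local ring of the centre -/
def rC (H : BD ℂ K) (V : RZ ℂ K) : loc H V →ₐ[ℂ] ctr H V where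
  toFun x := ⟨(plV V).r x, r_mem_ctr x.2⟩
  map_one' := Subtype.ext (plV V).r_one
  map_mul' x y := Subtype.ext (Pl.r_mul (p := plV V) (mem_of_loc x.2) (mem_of_loc y.2))
  map_zero' := Subtype.ext (plV V).r_zero
  map_add' x y := Subtype.ext (Pl.r_add (p := plV V) (mem_of_loc x.2) (mem_of_loc y.2))
  commutes' c := Subtype.ext (lnr_plV V c)

theorem rC_surj (H : BD ℂ K) (V : RZ ℂ K) : Function.Surjective (rC H V) := fun z => by
  obtain ⟨x, h1, h2⟩ := Live3.exists_r_eq z.2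
  exact ⟨⟨x, h1⟩, Subtype.ext h2⟩

/-- the field of the centre depends only on the local ring -/
theorem exists_ctrHom (h : loc H W = loc H V) : Nonempty (ctr H V →ₐ[ℂ] ctr H W) := by
  refine ⟨(rC H V).liftOfSurjective (rC_surj H V) ((rC H W).comp (Subalgebra.inclusion h.ge))
    fun x hx => ?_⟩
  by_contra hc
  have h1 : W.v x = 1 := (Pl.r_ne_zero_iff (p := plV W)).1 fun h1 => hc (Subtype.ext h1)
  exact (Pl.r_ne_zero_iff (p := plV V)).2 (Live3.v_eq_one_of_loc h.symm (h.ge x.2) h1)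
    (congrArg Subtype.val hx)

theorem dim_of_pg2 {F : Type} [Field F] [Algebra ℂ F] (h : PG2 F) : dim ℂ F = 2 := by
  obtain ⟨P, c, -⟩ := h
  haveI := eft P
  exact Gfm.dim_eq_of_basis c

variable [Algebra.EssFiniteType ℂ K]

theorem pg2_of_loc (hPG : PGStmt) (hW : Dvs W) (h : loc H W = loc H V) (h1 : Srf H V)
    (h2 : dim ℂ (ctr H W) = 2) : Srf H W := by
  haveI := essFT_Rf hW
  obtain ⟨φ⟩ := exists_ctrHom h
  exact hPG _ _ φ h1 h2

/-- classes from a model which contracts the ruling have degree zero -/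
theorem dg_of_le (hH : H.Free) (hH' : H'.Free) (hV : Dvs V) (h : dim ℂ (cen H V) = d)
    (h1 : ctr H' V ≤ cl H V) (ha : Car H' a) : dg V (a :: replicate d H) = 0 := by
  haveI := essFT_Rf hV
  have h2 : cen H' V ≤ cen H V := by
    rw [← cl_eq_cen hH, ← cl_eq_cen hH']
    exact fun y hy => cl_cl (isAlg_mono h1 (mem_cl.1 hy))
  rw [dg_cen_one hH h, (Gfm.lin_up_of_car ((plV V).free_rs hH') (Rho82.car_rs _ ha) h2).bnum_eq,
    bnum_zero, mul_zero]

theorem adjAt (hA : AdjGStmt) (b : Bs 4 K) {P : PModel ℂ K} (hH : H.Free) (hP : H ∈ On P) :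
    AdjAt P (kP P b) H 2 := fun V hV h => by
  have h1 := (dim_ctr hH hV.dvs).trans h
  have h2 := hA K b P H V hH hP hV h1
  have h3 := dlV_pos hH hV.dvs
  rw [dg_eq_fdg hH hV.dvs h1]
  nlinarith [Int.natCast_nonneg (gn (cl H V) (Rf V))]

theorem od_κ_le {b : Bs 4 K} (Z : TM b) {P : PModel ℂ K} (hV : Prm (oP P) V) :
    od V (Z.κ - Z.r • kP P b) ≤ 0 := by
  rw [map_sub, sub_nonpos]
  exact (od_le_iff hV.dvs).2 (Gfm.leOn_kP Z P V hV)

theorem od_κ_eq {b : Bs 4 K} (Z : TM b) {P : PModel ℂ K} (hV : Prm (oP P) V) (h : Prm Z.H V) :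
    od V (Z.κ - Z.r • kP P b) = 0 := by
  rw [map_sub, sub_eq_zero]
  exact (od_eq_iff hV.dvs).2 (Z.κ_eq P V hV h)

theorem od_κ_lt {b : Bs 4 K} (Z : TM b) {P : PModel ℂ K} (hV : Prm (oP P) V) (h : ¬ Prm Z.H V) :
    od V (Z.κ - Z.r • kP P b) < 0 := by
  rw [map_sub, sub_neg]
  exact (od_lt_iff hV.dvs).2 (Z.κ_lt P V hV h)

/-- `E` has a centre of codimension two on `U` and is the only divisor over this centre on which
`K_Z` is not trivial: then `-K_Z · f ≥ 1` and `E` is ruled -/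
theorem slice (hA : AdjGStmt) {b : Bs 4 K} (U Z : TM b) {E : RZ ℂ K} (hE : Prm Z.H E)
    (h2 : dim ℂ (ctr U.H E) = 2) (h0 : ∀ V, Dvs V → V ≠ E → loc U.H V = loc U.H E →
      dim ℂ (cen U.H V) = 2 → dg V (Z.κ :: replicate 2 U.H) = 0) :
    dg E (Z.κ :: replicate 2 U.H) ≤ -(Z.r * dlV U.H E) ∧ ∃ t : Rf E, Rul.IsRat (cl U.H E) t := by
  classical
  have hd : dim ℂ K = 2 + 2 := Gfm.dim_eq_of_basis b
  obtain ⟨P, hP, hT⟩ := Gfm.exists_prm_oP hE.dvs {U.H, Z.H}
  have hU : U.H ∈ On P := hT _ (by simp)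
  have hκ : ∀ {Y : TM b}, Y.H ∈ On P → Y.κ ∈ On P := fun {Y} h =>
    car_iff_On.1 (Car.trans Br.free_oP (car_of_On h) Y.car)
  have hF := U.mod.free
  have h3 := (dim_ctr hF hE.dvs).symm.trans h2
  let C := cfg U.mod hU hd (Br.kP_mem b) (adjAt hA b hF hU)
  have hC : ∀ {V}, V ∈ C.s ↔ Prm (oP P) V ∧ ¬ Prm U.H V ∧ dim ℂ (cen U.H V) = 2 :=
    mem_cfg U.mod hU hd _ _
  have hEs : E ∈ C.s := hC.2 ⟨hP, fun h => by
    have := (prm_iff_dim_cen U.mod hE.dvs).1 h
    omega, h3⟩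
  let T := C.s.filter fun V => loc U.H V = loc U.H E
  have hET : E ∈ T := mem_filter.2 ⟨hEs, rfl⟩
  have hTp : ∀ V ∈ T, Prm (oP P) V := fun V hV => (hC.1 (mem_filter.1 hV).1).1
  have hk : ∀ V ∈ T, ((dg V (kP P b :: replicate 2 U.H) : ℤ) : ℚ) = C.k V := fun V hV =>
    congrArg _ (cfg_k U.mod hU hd _ _ (hTp V hV)).symm
  have hY : C.Sol T (fun j => C.k j) fun V => od V (U.κ - U.r • kP P b) / U.r := by
    refine (cfg_sol U.mod hU hd _ _ (Br.kP_mem b) (hκ hU) U.r_pos hTp (fun V hV => ?_)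
      fun V hV W h4 h5 h6 => ?_).congr hk
    · exact dg_car hF (hTp V hV).dvs (hC.1 (mem_filter.1 hV).1).2.2.le U.car
    · have h7 := mem_ex2_of_mt U.mod hU hd (fun h => h5 (od_κ_eq U h4 h)) h6
      refine mem_filter.2 ⟨h7, Eq.trans (le_antisymm (Gz.loc_le ?_) (Gz.loc_le ?_))
        (mem_filter.1 hV).2⟩
      · exact by_contra fun h => h6
          ((mt_comm V W).trans (mt_eq_zero hF hU h4 (mem_ex2.1 h7).2.2.le h))
      · exact by_contra fun h => h6 (mt_eq_zero hF hU (hTp V hV)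
          (hC.1 (mem_filter.1 hV).1).2.2.le h)
  let D := Z.κ - Z.r • kP P b
  have hD : D ∈ On P := sub_mem (hκ (hT _ (by simp))) (nsmul_mem (Br.kP_mem b) _)
  let t := T.erase E
  let θ : RZ ℂ K → ℚ := fun V => -(∑ W ∈ sp P D \ t, od W D * C.M V W : ℤ) / Z.r
  have hr : (0 : ℚ) < Z.r := Nat.cast_pos.2 Z.r_pos
  have hev : ∀ V ∈ T, C.ev t (fun j => C.k j - θ j) (fun V => od V D / Z.r) V =
      dg V (Z.κ :: replicate 2 U.H) / Z.r := fun V hV => by
    have h4 := dg_eq_sum (d := 2) hU (hTp V hV) hD (T := t ∪ sp P D \ t) fun W h5 h6 _ => by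
      rw [union_sdiff_self_eq_union]
      exact mem_union_right _ (mem_sp.2 ⟨h5, h6⟩)
    rw [sum_union disjoint_sdiff, dg_sub, dg_nsmul, sub_eq_iff_eq_add'] at h4
    rw [h4, Cfg.ev, ← hk V hV]
    simp only [θ, div_mul_eq_mul_div, ← sum_div]
    push_cast
    field_simp
    change _ - -∑ W ∈ sp P D \ t, (od W D : ℚ) * mx2 P U.H 2 V W +
      ∑ W ∈ t, (od W D : ℚ) * mx2 P U.H 2 V W = _
    ring
  have hins : insert E t = T := insert_erase hET
  obtain ⟨h4, h5, h6⟩ := stop (C := C) (t := t) (e := E) (θ := θ) (a := fun V => od V D / Z.r)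
    ((erase_subset _ _).trans (filter_subset _ _)) hEs (notMem_erase _ _) (hins ▸ hY)
    (fun V hV => div_neg_of_neg_of_pos (Int.cast_lt_zero.2 (od_κ_lt U (hTp V (hins ▸ hV))
      (hC.1 (mem_filter.1 (hins ▸ hV)).1).2.1)) (Nat.cast_pos.2 U.r_pos))
    (fun V hV => div_nonneg (neg_nonneg.2 (Int.cast_nonpos.2 (sum_nonpos fun W hW => by
      obtain ⟨h4, h5⟩ := mem_sdiff.1 hW
      refine mul_nonpos_of_nonpos_of_nonneg (od_κ_le Z (mem_sp.1 h4).1) (C.off _ _ ?_)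
      rintro rfl
      rcases mem_insert.1 hV with rfl | h6
      · exact (mem_sp.1 h4).2 (od_κ_eq Z hP hE)
      · exact h5 h6))) hr.le)
    (fun V hV => by
      have h4 := mem_of_mem_erase hV
      rw [hev V h4, h0 V (hTp V h4).dvs (ne_of_mem_erase hV) (mem_filter.1 h4).2
        (hC.1 (mem_filter.1 h4).1).2.2, Int.cast_zero, zero_div])
    fun V hV => div_nonpos_of_nonpos_of_nonneg
      (Int.cast_nonpos.2 (od_κ_le Z (hTp V (mem_of_mem_erase hV)))) hr.le
  have hδ := dlV_pos hF hE.dvs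
  refine ⟨?_, ?_⟩
  · rw [hev E hET, div_le_iff₀ hr] at h4
    have h7 : ((dg E (Z.κ :: replicate 2 U.H) : ℤ) : ℚ) ≤ -(Z.r * dlV U.H E) := by
      rw [← mul_neg, mul_comm]
      exact h4
    exact_mod_cast h7
  · haveI := essFT_Rf hE.dvs
    obtain ⟨x, hx⟩ := h6 (dgL E (replicate 2 U.H)).range fun j _ =>
      ⟨dv P j, (cfg_M U.mod hU hd _ _ hP j).symm⟩
    rw [dgL_apply, dg_eq_fdg hF hE.dvs h2, fdg_eq] at hx
    rw [cfg_k U.mod hU hd _ _ hP, cfg_M U.mod hU hd _ _ hP, ← dg_add,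
      dg_eq_fdg hF hE.dvs h2] at h5
    have h7 := hA K b P U.H E hF hU hP h2
    change _ ≤ -2 * dlV U.H E at h5
    have h8 : fdg E (cl U.H E) (kP P b + dv P E) ≤ -2 := by nlinarith
    obtain ⟨y, h9, h10⟩ := exists_rat (dim_cl_one hF hE.dvs hd h2) (by omega)
      (mul_left_cancel₀ hδ.ne' (hx.trans (mul_one _).symm))
    exact ⟨y, h9, h10⟩

/-- **DIV-A** -/
theorem divA_of (hRC : RCStmt) (hPG : PGStmt) (hA : AdjGStmt) (hL : LemAStmt) : DivAStmt := by
  intro K _ _ _ b U Z Y E hx hw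
  have hd : dim ℂ K = 2 + 2 := Gfm.dim_eq_of_basis b
  have hE : Prm Z.H E := (hx.prm E).2 (Or.inr rfl)
  have hD := hE.dvs
  haveI := essFT_Rf hD
  have hF := U.mod.free
  have h2 : dim ℂ (ctr U.H E) = 2 := dim_of_pg2 hw.1
  have h3 := (dim_ctr hF hD).symm.trans h2
  have h4 : ctr Y.H E ≤ cl U.H E := fun y hy => mem_cl.2 (hRC K b Y E _ hD hx.nE hw.1 y hy)
  refine by_contra fun hc => ?_
  have h5 : dim ℂ (ctr Y.H E) < 2 :=
    lt_of_le_of_ne (dim_ctr Y.mod.free hD ▸ dim_cen_le Y.mod hD hx.nE hd) hc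
  obtain ⟨h6, t, ht⟩ := slice hA U Z hE h2 fun V hV hne hl hV2 =>
    dg_of_le hF Z.mod.free hV hV2 (fun y hy => mem_cl.2 (hRC K b Z V _ hV
      (fun h => ((hx.prm V).1 h).elim (hw.2 V hV hl) hne)
      (pg2_of_loc hPG hV hl hw.1 ((dim_ctr hF hV).trans hV2)) y hy)) Z.car
  obtain ⟨m, hm, a, ha, h7⟩ := Y.qf Z.H
  have h8 : Car Z.H (a - m • Z.H) :=
    (Car.trans Z.mod.free hx.car ha).sub ((car_self Z.mod.free).nsmul m)
  have h9 : dg E ((a - m • Z.H) :: replicate 2 U.H) < 0 := by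
    rw [dg_sub, dg_nsmul, dg_of_le hF Y.mod.free hD h3 h4 ha, zero_sub, neg_lt_zero]
    exact mul_pos (Nat.cast_pos.2 hm) (dg_pos_cen Z.mod hE hF hd h3)
  have h10 : 0 ≤ a - m • Z.H := sub_nonneg.2 (ha.le_of_free Y.mod (Z.mod.free.nsmul m) h7.ge)
  obtain ⟨c, hc'⟩ := Int.eq_ofNat_of_zero_le (od_nonneg (V := E) h10)
  have h11 : 0 < c := Nat.pos_of_ne_zero fun h => h9.not_ge
    (dg_nonneg_of h10 ((od_eq_zero hD).1 (by rw [hc', h]; rfl)) (all_rp hF.nef _))
  have h12 := hL K b Z Y E _ t _ c hx (hPG _ _ (IntermediateField.inclusion (ctr_le_cl U.H E))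
    hw.1 ((dim_cl hD _).trans h2)) ht h4 h5 h11 h8
    (fun V hV => by rw [map_sub, sub_eq_zero]; exact (od_eq_iff hV.dvs).2 (h7 V hV)) hc'
  have h13 := mul_le_mul_of_nonneg_left h12 (dlV_pos hF hD).le
  rw [← dg_eq_fdg hF hD h2, dg_neg, dg_add, dg_nsmul, dg_nsmul] at h13
  have h14 : (0 : ℤ) < Z.r := Nat.cast_pos.2 Z.r_pos
  nlinarith [mul_le_mul_of_nonneg_left h6 (Int.natCast_nonneg c), mul_pos h14 (neg_pos.2 h9)]

end Crest.Agent.X262.Reg
end
end

-- ▼ part X262/DivB81/Main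
section

/-!
# Row 262, BND (helper81): the witness of a contracted divisor is the local ring of the target

* `LocP H V a` : `a` is principal at the centre of `V` on the `H`-model;
* `divB_of : PGStmt → LiveStmt → RCStmt → Car2Stmt → J1Stmt → DivBStmt`.
-/

set_option autoImplicit false

open scoped KaehlerDifferential

noncomputable section

namespace Crest.Agent.X262.DivB

open Crest.Agent.X277 Crest.Agent.X277.Lef Crest.Agent.X277.BD Crest.Agent.X277.Pst
open Crest.Agent.X277.BD.Br (On oP kP)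
open Crest.Agent.X262.Mod Crest.Agent.X262.Bnd Crest.Agent.X262.Sark
open Crest.Agent.X262.Geo (od)

variable {K : Type} [Field K] [Algebra ℂ K] {H H' a b : BD ℂ K} {V W : RZ ℂ K}

/-- `a` is principal at the centre of `V` on the `H`-model -/
def LocP (H : BD ℂ K) (V : RZ ℂ K) (a : BD ℂ K) : Prop :=
  ∃ g : K, g ≠ 0 ∧ ∀ W, Gz H V W → W.v g = a.val W

theorem locP_of_car (hH : H.Free) (h : Car H a) (V : RZ ℂ K) : LocP H V a := h.exists_gen hH V

theorem LocP.mono (hH : H.Free) (hH' : H'.Free) (h : LocP H V a) (hl : loc H V ≤ loc H' V) :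
    LocP H' V a :=
  h.imp fun _ h => ⟨h.1, fun W hW => h.2 W (gz_of_loc hH fun x hx => (gz_iff hH').1 hW x (hl hx))⟩

theorem LocP.sub (ha : LocP H V a) (hb : LocP H V b) : LocP H V (a - b) := by
  obtain ⟨g, h1, h2⟩ := ha
  obtain ⟨g', h3, h4⟩ := hb
  exact ⟨g / g', div_ne_zero h1 h3, fun W hW => by rw [map_div₀, h2 W hW, h4 W hW, val_sub]⟩

theorem LocP.neg (ha : LocP H V a) : LocP H V (-a) := by
  obtain ⟨g, h1, h2⟩ := ha
  exact ⟨g⁻¹, inv_ne_zero h1, fun W hW => by rw [map_inv₀, h2 W hW, val_neg]⟩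

variable [Algebra.EssFiniteType ℂ K]

/-- a locally principal effective divisor which misses the centre misses every generisation -/
theorem LocP.eff (hH : IsMod H) (ha : LocP H V a)
    (h : ∀ W, Prm H W → Gz H V W → 1 ≤ a.val W) :
    1 ≤ a.val V ∧ (a.val V ≤ 1 → ∀ W, Gz H V W → a.val W = 1) := by
  obtain ⟨g, h1, h2⟩ := ha
  have h3 : g⁻¹ ∈ loc H V := R1.mem_loc_of_prm hH fun W hW hG => RZ.le_one_iff.1 (by
    rw [map_inv₀, inv_le_one₀ (RZ.pos h1), h2 W hG]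
    exact h W hW hG)
  have h4 := RZ.le_one_iff.2 (mem_of_loc h3)
  rw [map_inv₀, inv_le_one₀ (RZ.pos h1), h2 V Gz.rfl] at h4
  refine ⟨h4, fun h5 W hW => ?_⟩
  have h6 := hW.unit h3 (by rw [map_inv₀, h2 V Gz.rfl, h5.antisymm h4, inv_one])
  rwa [map_inv₀, inv_eq_one, h2 W hW] at h6

theorem LocP.val_eq_one (hH : IsMod H) (ha : LocP H V a)
    (h : ∀ W, Prm H W → Gz H V W → a.val W = 1) : a.val V = 1 := by
  have h1 := (ha.neg.eff hH fun W h1 h2 => by rw [val_neg, h W h1 h2, inv_one]).1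
  rw [val_neg, one_le_inv₀ (val_pos _ _)] at h1
  exact h1.antisymm (ha.eff hH fun W h1 h2 => (h W h1 h2).ge).1

theorem exists_prm_oP (hV : Dvs V) : ∃ W : PModel ℂ K, Prm (oP W) V := by
  obtain ⟨c, -, h⟩ := Geo.exists_prm hV
  obtain ⟨W, hW⟩ := Unf.exists_on {c}
  exact ⟨W, (Sark27.car_of_on (hW c (by simp))).prm h⟩

variable {n : ℕ} {c : Bs n K} {P : PModel ℂ K}

theorem od_κ_eq (Y : TM c) (hP : Prm (oP P) V) (hV : Prm Y.H V) :
    od V Y.κ = Y.r * od V (kP P c) := by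
  rw [(Geo.od_eq_iff hV.dvs).2 (Y.κ_eq P V hP hV), map_nsmul, nsmul_eq_mul]

theorem od_κ_lt (Y : TM c) (hP : Prm (oP P) V) (hV : ¬ Prm Y.H V) :
    od V Y.κ < Y.r * od V (kP P c) := by
  rw [← nsmul_eq_mul, ← map_nsmul]
  exact (Geo.od_lt_iff hP.dvs).2 (Y.κ_lt P V hP hV)

/-- if all primes of `U` through the centre of `V` are primes of the `ℚ`-factorial model `Y`, the
local rings agree -/
theorem loc_ge (Y : TM c) (hH : IsMod H) (h1 : loc Y.H V ≤ loc H V)
    (h : ∀ D, Prm H D → Gz H V D → Prm Y.H D) : loc H V ≤ loc Y.H V := by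
  obtain ⟨m, hm, a, h2, h3⟩ := Y.qf H
  have h4 := (((locP_of_car Y.mod.free h2 V).mono Y.mod.free hH.free h1).sub
    (locP_of_car hH.free ((car_self hH.free).nsmul m) V)).val_eq_one hH fun D h4 h5 => by
      rw [val_sub, h3 D (h D h4 h5), div_self (val_ne _ _)]
  rw [val_sub, div_eq_one_iff_eq (val_ne _ _)] at h4
  exact (loc_le_nsmul hH.free hm V).trans
    (loc_le_of_eq h2 (h2.le_of_free Y.mod (hH.free.nsmul m) h3.ge) h4.symm)

/-- **DIV-B** -/
theorem divB_of (hP : PGStmt) (hL : LiveStmt) (hR : RCStmt) (hC : Car2Stmt) (hJ : J1Stmt) :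
    DivBStmt := by
  intro K _ _ _ b U Z Y E hE hW hd
  have hZ : Prm Z.H E := (hE.prm E).2 (Or.inr rfl)
  have h1 : loc Y.H E ≤ loc U.H E :=
    hL K U.H Y.H E U.mod Y.mod.free (by rw [hW.1.dim, dim_of_bs b]) fun W h1 h2 x hx =>
      mem_cl.2 (hR K b Y W _ h1 (hW.2 W h1 h2) (srf_congr hP hZ.dvs h1 h2.symm hW.1) x hx)
  refine h1.antisymm (loc_ge Y U.mod h1 fun D hD hG => by_contra fun hn => ?_)
  have hU : (0 : ℤ) < U.r := Int.natCast_pos.2 U.r_pos
  have hY : (0 : ℤ) < Y.r := Int.natCast_pos.2 Y.r_pos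
  have hZ' : (0 : ℤ) < Z.r := Int.natCast_pos.2 Z.r_pos
  have key : ∀ D, Prm U.H D → 0 ≤ od D (Y.r • U.κ - U.r • Y.κ) ∧
      (¬ Prm Y.H D → 0 < od D (Y.r • U.κ - U.r • Y.κ)) := fun D hD => by
    obtain ⟨P, h2⟩ := exists_prm_oP hD.dvs
    rw [map_sub, map_nsmul, map_nsmul, nsmul_eq_mul, nsmul_eq_mul, od_κ_eq U h2 hD]
    have h3 : ¬ Prm Y.H D → 0 < Y.r * (U.r * od D (kP P b)) - U.r * od D Y.κ := fun h3 => by
      nlinarith [od_κ_lt Y h2 h3]
    refine ⟨?_, h3⟩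
    by_cases h4 : Prm Y.H D
    · rw [od_κ_eq Y h2 h4]
      linarith
    · exact (h3 h4).le
  have h2 : od E (Y.r • U.κ - U.r • Y.κ) ≤ od E 0 := by
    obtain ⟨P, h2⟩ := exists_prm_oP hZ.dvs
    have h3 := hC K b U P E h2 hW.1.dim
    have h4 := (hJ K b Z Y E hE hd).2.2
    simp only [map_sub, map_nsmul, nsmul_eq_mul, od_κ_eq Z h2 hZ, map_zero] at h3 h4 ⊢
    have h5 : od E Y.κ = Y.r * (od E (kP P b) - 1) := by
      refine mul_left_cancel₀ hZ'.ne' ?_
      push_cast at h4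
      linarith
    rw [h5]
    nlinarith
  have h3 := (((locP_of_car U.mod.free (U.car.nsmul Y.r) E).sub
    ((locP_of_car Y.mod.free (Y.car.nsmul U.r) E).mono Y.mod.free U.mod.free h1)).eff U.mod
    fun W h3 _ => by
      have h4 := (Geo.od_le_iff h3.dvs).1 ((map_zero (od W)).le.trans (key W h3).1)
      rwa [val_zero] at h4).2 (by simpa using (Geo.od_le_iff hZ.dvs).1 h2) D hG
  exact ((key D hD).2 hn).ne' ((Geo.od_eq_zero hD.dvs).2 h3)

end Crest.Agent.X262.DivB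
end
end

-- ▼ part X262/End95/End
section

/-!
# Row 262, BND (helper95): the exceptional divisors of K3 type over a smooth model are counted

* `tmP P b`    : a smooth model as a terminal model;
* `loc_eq`     : `SmZ P O`, `V` dominates `O` gives `loc (oP P) V = O`;
* `exists_wit` : a smooth witness; `endStmt_of`.
-/

set_option autoImplicit false
set_option linter.style.haveILetI false

open scoped KaehlerDifferential

noncomputable section

namespace Crest.Agent.X262.End95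

open Crest.Agent.X277 Crest.Agent.X277.BD Crest.Agent.X277.Lef Crest.Agent.X277.Pst
open Crest.Agent.X277.BD.Br (oP kP On)
open Crest.Agent.X277.BD.Cyc (Rf)
open Crest.Agent.X262.Bnd Crest.Agent.X262.Qt

variable {K : Type} [Field K] [Algebra ℂ K] {n c : ℕ} {P : PModel ℂ K} {O : Subalgebra ℂ K}
  {V : RZ ℂ K}

/-- a smooth model is a terminal model -/
def tmP (P : PModel ℂ K) (b : Bs n K) : Sark.TM b :=
  haveI := Geo.eft P
  { H := oP P
    mod := Geo.isMod_oP P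
    r := 1
    r_pos := one_pos
    κ := kP P b
    car := Geo.car_of_On (Br.kP_mem b)
    κ_eq := fun _ _ h1 h2 => by rw [one_nsmul, Sark27.kP_eq_val b h2 h1]
    κ_lt := fun _ _ h1 h2 => by
      rw [one_nsmul]
      exact Sark27.kP_lt_val b h1 h2
    qf := fun a => ⟨1, one_pos, _, Geo.car_of_On (Geo.tr_mem a),
      Geo.eqOn_iff.2 fun _ h => by rw [one_nsmul, Geo.od_tr h]⟩ }

theorem dom_loc (H : BD ℂ K) (V : RZ ℂ K) : Dom V.1 (loc H V) :=
  ⟨fun _ => mem_of_loc, fun _ => Neg.inv_mem_loc⟩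

theorem loc_eq (h : SmZ P O n c) (hd : Dom V.1 O) : loc (oP P) V = O := by
  obtain ⟨x, hx⟩ := h.ne
  have h1 : Cns.Ov x V.1 := fun f hf => hd.le f (hx hf)
  refine le_antisymm (fun f hf => ?_) fun f hf => ?_
  · obtain ⟨b, h2, h3, h4⟩ := Sark27.exists_den h1 hf
    have := hd.div_mem (hx h4) (hx h2) h3
    rwa [mul_div_cancel_left₀ _ (ne_of_val h3)] at this
  · obtain ⟨b, h2, h3, h4⟩ := h.loc x hx f hf
    have := (dom_loc _ V).div_mem (Geo.lp_le_loc h1 h4) (Geo.lp_le_loc h1 h2)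
      ((hd.un_iff h3.2.1).1 h3)
    rwa [mul_div_cancel_left₀ _ h3.1] at this

/-- a smooth witness -/
theorem exists_wit (hQ : QtStmt) (hR : RfStmt) (b : Bs n K) (P : PModel ℂ K) (hV : Dvs V)
    (hP : ¬ Prm (oP P) V) {F : Type} [Field F] [Algebra ℂ F] (hF : PG2 F)
    (e : Rf V ≃ₐ[ℂ] RatFunc F) : ∃ W : PModel ℂ K, oP P ∈ On W ∧ Wit (tmP W b) (oP P) V := by
  haveI := Geo.eft P
  haveI := Geo.essFT_Rf hV
  obtain ⟨a, ha⟩ := hQ K P
  obtain ⟨i, U, t, Pd, q⟩ := ha V hV hP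
  obtain ⟨W, h1, h2, -⟩ := R139.model2 K n b P V i U t ∅ q.chart q.mem q.ord.coords (by simp)
  have h3 := loc_eq h2 q.ord.dom
  obtain ⟨e', -⟩ := hR ℂ K _ t V q.ord
  obtain ⟨f, -⟩ := Rul.rul (PG2.pg hF) (e.symm.trans e')
  refine ⟨W, h1, ?_, fun V' _ h h4 => q.prm V' h4 ?_⟩
  · have h5 : ctr (oP W) V = kf (ring P i U V) V := by rw [ctr, h3]; rfl
    exact (h5 ▸ PG2.congr hF f : PG2 (ctr (oP W) V))
  · exact (Eq.trans h h3 : loc (oP W) V' = _) ▸ dom_loc _ V'

theorem endStmt_of (hQ : QtStmt) (hR : RfStmt) : EndStmt := fun _ _ _ _ b P _ hV hP h => by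
  obtain ⟨F, _, _, _, d, -, ⟨X⟩, ⟨e⟩⟩ := h
  obtain ⟨W, -, h⟩ := exists_wit hQ hR b P hV hP (pg2_k3 X) e
  exact ⟨hV, _, h⟩

end Crest.Agent.X262.End95
end
end

-- ▼ part X262/Gfm18/V77

/-!
# Row 262, GFM (helper18), part 4: the algebraic volume bound implies the volume statement
-/

set_option autoImplicit false

open scoped KaehlerDifferential

noncomputable section

namespace Crest.Agent.X262.Gfm

open Module Crest.Agent.X277 Crest.Agent.X277.BD Crest.Agent.X277.Pst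

theorem CF.toIn {E F : Type} [Field E] [Field F] [Algebra E F] {m : ℕ}
    {b : Basis (Fin m) F Ω[F⁄E]} {H : BD E F} {r : ℕ} {u : F} (h : CF b H r u) : Vol77.In H r where
  mod := h.mod
  reg := h.reg
  pos := h.r_pos
  can := ⟨m, b, u, h.u_ne, fun V hV g hg => ⟨by
    by_cases h1 : Prm H V
    exacts [(h.kv_eq V h1 g hg).ge, (h.kv_lt V hV h1 g hg).le],
    fun h1 => (h.kv_eq V h1 g hg).symm⟩⟩
  rho a := by
    obtain ⟨m, h1, c, f, h2, h3⟩ := h.rho a
    exact ⟨m, c, f, h1, h2, h3⟩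

theorem volS_of_77 {n : ℕ} (h : Vol77.Vol (n + 1)) : VolS (n + 1) := by
  obtain ⟨C, h⟩ := h
  exact volS_of_cf (C := C) fun E F _ _ _ _ _ m b H r u h1 h2 h3 => h h1.toIn h2 h3

end Crest.Agent.X262.Gfm
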